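import Crest.Agent.N207.SB.Rho
import Crest.Agent.N207.AI.HcDef

/-!
# Row 207 (helper38): `HC.Bump` for the concrete scalar calculus
-/

set_option autoImplicit false
set_option maxSynthPendingDepth 3
set_option linter.unusedSectionVars false

open Bundle Set MeasureTheory Manifold Filter Metric Real
open scoped ENNReal ContDiff Topology NNReal
open Crest.Agent.R247 Crest.Agent.R247.Ms322

noncomputable section

namespace Crest.Agent.N207.SB

section static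

local notation "𝔼" => EuclideanSpace ℝ (Fin 4)

variable {M : Type*} [MetricSpace M] [CompactSpace M] [ChartedSpace 𝔼 M]
  [IsManifold (𝓡 4) ∞ M]
  [RiemannianBundle (fun p : M => TangentSpace (𝓡 4) p)]
  [IsContMDiffRiemannianBundle (𝓡 4) ∞ 𝔼 (fun p : M => TangentSpace (𝓡 4) p)]
  [SecondCountableTopology M] [Nonempty M] [IsRiemannianManifold (𝓡 4) M]
  [MeasurableSpace M] [BorelSpace M]

theorem bump_static {R : M → ℝ} (hR : Continuous R) (x : M) {ε : ℝ} (hε : 0 < ε) :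
    ∃ τ, 0 < τ ∧ τ < ε ∧ ∃ u : M → ℝ, ContMDiff (𝓡 4) 𝓘(ℝ, ℝ) ∞ u ∧ (∀ y, 0 < u y) ∧
      ∫ y, u y ∂(μHE[4] : Measure M) = 1 ∧
      ∫ y, (τ * (Bo84.mGam 4 u u y / u y ^ 2 + R y) + HC.pot τ u y - 4) * u y
        ∂(μHE[4] : Measure M) ≤ ε ∧
      |(∫ y, HC.pot τ u y * u y ∂(μHE[4] : Measure M)) - 2| ≤ ε ∧
      ∫ y in {y | ε ≤ dist x y}, u y ∂(μHE[4] : Measure M) ≤ ε := by
  have := finVol (M := M)
  obtain ⟨ρ, hs, hD, hp⟩ := exists_rho x
  obtain ⟨c, hc, hlow⟩ := low hs.continuous hp (ball_mem_nhds x hε)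
  have hS : MeasurableSet {y : M | ε ≤ dist x y} :=
    (isClosed_le continuous_const (by fun_prop)).measurableSet
  have h1 := hD.mass hS hc (fun z hz => hlow z (by
    rw [mem_ball, dist_comm]; exact not_lt.2 hz)) hε
  obtain ⟨τ, ⟨⟨⟨hZ, e1, e2, e3⟩, e4⟩, hτ⟩, hτε⟩ := ((((hD.main hR hε).and h1).and
    self_mem_nhdsWithin).and (mem_nhdsWithin_of_mem_nhds (gt_mem_nhds hε))).exists
  have hτ' : (0 : ℝ) < τ := hτ
  set Z := Zm (μHE[4] : Measure M) ρ τ with hZd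
  set ψ : ℝ → ℝ := fun s => exp (-(s / (4 * τ))) / Z with hψ
  have hψs : ContDiff ℝ ∞ ψ := by rw [hψ]; fun_prop
  have hu : ub (μHE[4] : Measure M) ρ τ = fun z => ψ (ρ z) := rfl
  have hd : ∀ s, deriv ψ s = -(1 / (4 * τ)) * ψ s := fun s => by
    have h2 : HasDerivAt (fun s : ℝ => -(s / (4 * τ))) (-(1 / (4 * τ))) s :=
      ((hasDerivAt_id s).div_const _).neg
    rw [(h2.exp.div_const Z).deriv, hψ]
    ring
  have hus : ContMDiff (𝓡 4) 𝓘(ℝ, ℝ) ∞ (ub (μHE[4] : Measure M) ρ τ) :=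
    hψs.contMDiff.comp hs
  have hup : ∀ z, 0 < ub (μHE[4] : Measure M) ρ τ z := fun z => div_pos (ew_pos ρ τ z) hZ
  refine ⟨τ, hτ', hτε, ub (μHE[4] : Measure M) ρ τ, hus, hup, e1, le_of_eq_of_le ?_ e2, e3, e4⟩
  refine integral_congr_ae (Eventually.of_forall fun z => ?_)
  have hm : MDifferentiableAt (𝓡 4) 𝓘(ℝ, ℝ) ρ z := (hs z).mdifferentiableAt (by simp)
  have hd' : DifferentiableAt ℝ ψ (ρ z) := hψs.differentiable (by simp) _
  have g1 : Bo84.mGam 4 (ub (μHE[4] : Measure M) ρ τ) (ub (μHE[4] : Measure M) ρ τ) z =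
      deriv ψ (ρ z) * (deriv ψ (ρ z) * Bo84.mGam 4 ρ ρ z) := by
    rw [hu, Bo84.mGam_comp_left hd' hm, Bo84.mGam_comp_right hd' hm]
  have g2 : ψ (ρ z) ≠ 0 := (hup z).ne'
  simp only [HC.pot]
  rw [g1, hd]
  congr 4
  rw [hu]
  field_simp
  ring

end static

variable {M : Type*} [TopologicalSpace M] [ChartedSpace E4 M] [IsManifold 𝓘(ℝ, E4) ∞ M]
  [T3Space M] [ConnectedSpace M] [MeasurableSpace M] [BorelSpace M] [CompactSpace M]
  [SecondCountableTopology M]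

/-- **tiny Gaussian bumps**; the continuity of the scalar curvature is a hypothesis -/
theorem bump_of (F : Flow M) (hR : ∀ t ∈ Ioo 0 F.T, Continuous (F.m t).scal) : F.hc.Bump := by
  intro t ht x ε hε
  exact bump_static (M := Sl (F.m t)) (R := (F.m t).scal) (hR t ht) x hε

theorem bump (F : Flow M) (h : F.hc.Alg) : F.hc.Bump := by
  refine bump_of F fun t ht => ?_
  have hs : F.hc.St (t / 2) ((t + F.T) / 2) :=
    ⟨by linarith [ht.1], by linarith [ht.1, ht.2], by rw [Flow.hc_T]; linarith [ht.2]⟩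
  exact h.s0_cont (h.sm_s0 (h.sm_R hs) t ⟨by linarith [ht.1], by linarith [ht.2]⟩)

end Crest.Agent.N207.SB

end
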