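import Crest.Agent.N207.SB.Lap

/-!
# Row 207 (helper38): Gaussian bumps on `ℝ⁴`
-/

set_option autoImplicit false
set_option linter.unusedSectionVars false
open Set Filter Topology MeasureTheory Real

noncomputable section

namespace Crest.Agent.N207.SB

local notation "𝔼" => EuclideanSpace ℝ (Fin 4)

theorem cv (A : 𝔼 ≃L[ℝ] 𝔼) (a : 𝔼) (f : 𝔼 → ℝ) :
    ∫ y, f (A (y - a)) = |(A : 𝔼 →L[ℝ] 𝔼).det|⁻¹ * ∫ w, f w := by
  rw [integral_sub_right_eq_self (fun y => f (A y)) a]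
  have hd : LinearMap.det (A : 𝔼 →ₗ[ℝ] 𝔼) ≠ 0 := (LinearEquiv.isUnit_det' A.toLinearEquiv).ne_zero
  have h1 := Measure.map_linearMap_addHaar_eq_smul_addHaar (volume : Measure 𝔼) hd
  have h2 := A.toHomeomorph.measurableEmbedding.integral_map (μ := volume) f
  have h3 : (Measure.map A.toHomeomorph volume : Measure 𝔼) =
      Measure.map (A : 𝔼 →ₗ[ℝ] 𝔼) volume := rfl
  rw [h3, h1, integral_smul_measure, ENNReal.toReal_ofReal (abs_nonneg _), abs_inv] at h2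
  exact h2.symm

theorem gauss4 : ∫ w : 𝔼, exp (-(‖w‖ ^ 2 / 4)) = (4 * π) ^ 2 := by
  have h := GaussianFourier.integral_rexp_neg_mul_sq_norm (V := 𝔼) (b := 1 / 4) (by norm_num)
  rw [finrank_euclideanSpace_fin] at h
  have e : ((4 : ℕ) : ℝ) / 2 = ((2 : ℕ) : ℝ) := by norm_num
  rw [e, rpow_natCast] at h
  rw [show (4 * π) = π / (1 / 4) by ring, ← h]
  congr 1
  funext w
  congr 1
  ring

theorem gauss_int : Integrable fun w : 𝔼 => exp (-(‖w‖ ^ 2 / 4)) := by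
  by_contra h
  have h1 := gauss4
  rw [integral_undef h] at h1
  have : (0 : ℝ) < (4 * π) ^ 2 := by positivity
  linarith

theorem gauss_lim (A : 𝔼 ≃L[ℝ] 𝔼) (a : 𝔼) {F : 𝔼 → ℝ} (hm : Measurable F) {C : ℝ}
    (hC : ∀ y, |F y| ≤ C) (hc : ContinuousAt F a) :
    Tendsto (fun τ : ℝ => (∫ y, F y * exp (-(‖A (y - a)‖ ^ 2 / (4 * τ)))) / (4 * π * τ) ^ 2)
      (𝓝[>] 0) (𝓝 (|(A : 𝔼 →L[ℝ] 𝔼).det|⁻¹ * F a)) := by
  have h1 : Tendsto (fun τ : ℝ => ∫ w : 𝔼, F (a + A.symm (√τ • w)) * exp (-(‖w‖ ^ 2 / 4)))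
      (𝓝[>] 0) (𝓝 (∫ w : 𝔼, F a * exp (-(‖w‖ ^ 2 / 4)))) := by
    refine tendsto_integral_filter_of_dominated_convergence
      (fun w => C * exp (-(‖w‖ ^ 2 / 4))) (Eventually.of_forall fun τ => ?_)
      (Eventually.of_forall fun τ => Eventually.of_forall fun w => ?_) (gauss_int.const_mul C)
      (Eventually.of_forall fun w => ?_)
    · refine Measurable.aestronglyMeasurable (Measurable.mul (hm.comp ?_) ?_)
      · exact Continuous.measurable (by fun_prop)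
      · exact Continuous.measurable (by fun_prop)
    · rw [Real.norm_eq_abs, abs_mul, abs_of_pos (exp_pos _)]
      exact mul_le_mul_of_nonneg_right (hC _) (exp_pos _).le
    · refine Tendsto.mul_const _ (hc.tendsto.comp ?_)
      have : Continuous fun τ : ℝ => a + A.symm (√τ • w) := by fun_prop
      have h2 := this.tendsto 0
      simp only [sqrt_zero, zero_smul, map_zero, add_zero] at h2
      exact h2.mono_left nhdsWithin_le_nhds
  rw [integral_const_mul, gauss4] at h1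
  have h2 := (h1.const_mul |(A : 𝔼 →L[ℝ] 𝔼).det|⁻¹).div_const ((4 * π) ^ 2)
  have e0 : |(A : 𝔼 →L[ℝ] 𝔼).det|⁻¹ * (F a * (4 * π) ^ 2) / (4 * π) ^ 2 =
      |(A : 𝔼 →L[ℝ] 𝔼).det|⁻¹ * F a := by field_simp
  rw [e0] at h2
  refine h2.congr' ?_
  filter_upwards [self_mem_nhdsWithin] with τ hτ
  have hτ' : (0 : ℝ) < τ := hτ
  set f : 𝔼 → ℝ := fun w => F (a + A.symm w) * exp (-(‖w‖ ^ 2 / (4 * τ))) with hf
  have e1 : ∫ y, F y * exp (-(‖A (y - a)‖ ^ 2 / (4 * τ))) = ∫ y, f (A (y - a)) := by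
    simp [hf]
  have e2 := Measure.integral_comp_smul (volume : Measure 𝔼) f (√τ)
  rw [finrank_euclideanSpace_fin] at e2
  have e3 : (√τ) ^ 4 = τ ^ 2 := by
    rw [show (4 : ℕ) = 2 * 2 from rfl, pow_mul, sq_sqrt hτ'.le]
  rw [e3, abs_of_pos (by positivity), smul_eq_mul] at e2
  have e4 : ∀ w : 𝔼, f (√τ • w) = F (a + A.symm (√τ • w)) * exp (-(‖w‖ ^ 2 / 4)) := fun w => by
    simp only [hf]
    rw [norm_smul, mul_pow, Real.norm_eq_abs, sq_abs, sq_sqrt hτ'.le]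
    congr 3
    field_simp
  simp only [e4] at e2
  rw [e1, cv, e2]
  field_simp

end Crest.Agent.N207.SB

end
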