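import Mathlib

/-!
# Row 207 (helper38): Laplace asymptotics of Gaussian bumps, abstract part
-/

set_option autoImplicit false
set_option linter.unusedSectionVars false
open Set Filter Topology MeasureTheory Real

noncomputable section

namespace Crest.Agent.N207.SB

variable {X : Type*} [TopologicalSpace X] [CompactSpace X] [MeasurableSpace X] [BorelSpace X]

/-- the Gaussian weight -/
def ew (ρ : X → ℝ) (τ : ℝ) (z : X) : ℝ := exp (-(ρ z / (4 * τ)))

/-- its mass -/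
def Zm (μ : Measure X) (ρ : X → ℝ) (τ : ℝ) : ℝ := ∫ z, ew ρ τ z ∂μ

/-- hypotheses: `ρ` is a squared distance to first order, `g = |∇ρ|²` -/
structure Dat (μ : Measure X) (ρ g : X → ℝ) : Prop where
  cρ : Continuous ρ
  cg : Continuous g
  nn : ∀ z, 0 ≤ ρ z
  lim : Tendsto (fun τ => Zm μ ρ τ / (4 * π * τ) ^ 2) (𝓝[>] 0) (𝓝 1)
  gle : ∀ η > 0, ∃ c > 0, ∀ z, ρ z < c → g z ≤ 4 * (1 + η) * ρ z

theorem tail (k : ℕ) {c : ℝ} (hc : 0 < c) (C : ℝ) :
    Tendsto (fun τ : ℝ => C * exp (-(c / (4 * τ))) / τ ^ k) (𝓝[>] 0) (𝓝 0) := by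
  have h1 : Tendsto (fun τ : ℝ => c / (4 * τ)) (𝓝[>] 0) atTop := by
    have := (tendsto_inv_nhdsGT_zero (𝕜 := ℝ)).const_mul_atTop (r := c / 4) (by positivity)
    refine this.congr fun τ => ?_
    field_simp
  have h2 := ((tendsto_pow_mul_exp_neg_atTop_nhds_zero k).comp h1).const_mul (C * (4 / c) ^ k)
  rw [mul_zero] at h2
  refine h2.congr' ?_
  filter_upwards [self_mem_nhdsWithin] with τ hτ
  have hτ' : (0 : ℝ) < τ := hτ
  simp only [Function.comp, div_pow, mul_pow]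
  field_simp

theorem intg {μ : Measure X} [IsFiniteMeasure μ] {f : X → ℝ} (hf : Continuous f) :
    Integrable f μ := hf.integrable_of_hasCompactSupport (HasCompactSupport.of_compactSpace f)

theorem ew_pos (ρ : X → ℝ) (τ : ℝ) (z : X) : 0 < ew ρ τ z := exp_pos _

theorem ew_cont {ρ : X → ℝ} (h : Continuous ρ) (τ : ℝ) : Continuous (ew ρ τ) := by
  unfold ew; fun_prop

theorem ew_le {ρ : X → ℝ} {τ c : ℝ} (hτ : 0 < τ) {z : X} (h : c ≤ ρ z) :
    ew ρ τ z ≤ exp (-(c / (4 * τ))) :=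
  exp_le_exp.2 (neg_le_neg (div_le_div_of_nonneg_right h (by positivity)))

variable {μ : Measure X} [IsFiniteMeasure μ] {ρ g : X → ℝ}

theorem Dat.scale (h : Dat μ ρ g) {s : ℝ} (hs : 0 < s) :
    Tendsto (fun τ => Zm μ ρ (τ / s) / (4 * π * τ) ^ 2) (𝓝[>] 0) (𝓝 (1 / s ^ 2)) := by
  have h1 : Tendsto (fun τ : ℝ => τ / s) (𝓝[>] 0) (𝓝[>] 0) := by
    refine tendsto_nhdsWithin_iff.2 ⟨?_, ?_⟩
    · have : Tendsto (fun τ : ℝ => τ / s) (𝓝 0) (𝓝 (0 / s)) := tendsto_id.div_const s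
      rw [zero_div] at this
      exact this.mono_left nhdsWithin_le_nhds
    · filter_upwards [self_mem_nhdsWithin] with τ hτ using div_pos hτ hs
  have h2 := (h.lim.comp h1).div_const (s ^ 2)
  refine h2.congr' ?_
  filter_upwards [self_mem_nhdsWithin] with τ hτ
  have hτ' : (0 : ℝ) < τ := hτ
  simp only [Function.comp]
  field_simp

theorem ew_div (ρ : X → ℝ) (τ s : ℝ) (z : X) :
    ew ρ (τ / s) z = exp (-(s * (ρ z / (4 * τ)))) := by
  unfold ew
  congr 2
  by_cases hs : s = 0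
  · simp [hs]
  · by_cases hτ : τ = 0
    · simp [hτ]
    · field_simp

/-- first moment -/
def M1 (μ : Measure X) (ρ : X → ℝ) (τ : ℝ) : ℝ := ∫ z, ρ z / (4 * τ) * ew ρ τ z ∂μ

theorem Dat.low (h : Dat μ ρ g) (δ τ : ℝ) :
    Zm μ ρ τ - Zm μ ρ (τ / (1 + δ)) ≤ δ * M1 μ ρ τ := by
  have c1 := ew_cont h.cρ τ
  have c0 := h.cρ
  rw [Zm, Zm, M1, ← integral_sub (intg c1) (intg (ew_cont h.cρ _)), ← integral_const_mul]
  refine integral_mono ((intg c1).sub (intg (ew_cont h.cρ _))) (intg (by fun_prop)) fun z => ?_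
  simp only [ew_div]
  unfold ew
  set t := ρ z / (4 * τ)
  have e1 : exp (-((1 + δ) * t)) = exp (-t) * exp (-(δ * t)) := by rw [← exp_add]; congr 1; ring
  have e2 := add_one_le_exp (-(δ * t))
  have e3 := exp_pos (-t)
  rw [e1]
  nlinarith

theorem Dat.upp (h : Dat μ ρ g) (δ τ : ℝ) :
    δ * M1 μ ρ τ ≤ Zm μ ρ (τ / (1 - δ)) - Zm μ ρ τ := by
  have c1 := ew_cont h.cρ τ
  have c0 := h.cρ
  rw [Zm, Zm, M1, ← integral_sub (intg (ew_cont h.cρ _)) (intg c1), ← integral_const_mul]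
  refine integral_mono (intg (by fun_prop)) ((intg (ew_cont h.cρ _)).sub (intg c1)) fun z => ?_
  simp only [ew_div]
  unfold ew
  set t := ρ z / (4 * τ)
  have e1 : exp (-((1 - δ) * t)) = exp (-t) * exp (δ * t) := by rw [← exp_add]; congr 1; ring
  have e2 := add_one_le_exp (δ * t)
  have e3 := exp_pos (-t)
  rw [e1]
  nlinarith

theorem Dat.m1 (h : Dat μ ρ g) :
    Tendsto (fun τ => M1 μ ρ τ / (4 * π * τ) ^ 2) (𝓝[>] 0) (𝓝 2) := by
  refine tendsto_order.2 ⟨fun a ha => ?_, fun a ha => ?_⟩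
  · set δ := (2 - a) / 4 with hδ
    have h0 : 0 < δ := by rw [hδ]; linarith
    have h1 := ((h.lim.sub (h.scale (s := 1 + δ) (by linarith))).div_const δ)
    have h2 : a < (1 - 1 / (1 + δ) ^ 2) / δ := by
      have : (1 - 1 / (1 + δ) ^ 2) / δ = (2 + δ) / (1 + δ) ^ 2 := by field_simp; ring
      rw [this, lt_div_iff₀ (by positivity)]
      have : a = 2 - 4 * δ := by rw [hδ]; ring
      rw [this]
      nlinarith [mul_pos h0 h0, mul_pos h0 (mul_pos h0 h0)]
    filter_upwards [h1.eventually (lt_mem_nhds h2), self_mem_nhdsWithin] with τ h3 hτ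
    have hτ' : (0 : ℝ) < τ := hτ
    refine h3.trans_le ?_
    rw [← sub_div, div_right_comm]
    refine div_le_div_of_nonneg_right ?_ (by positivity)
    rw [div_le_iff₀ h0, mul_comm]
    exact h.low δ τ
  · set δ := min (1 / 2) ((a - 2) / 9) with hδ
    have h0 : 0 < δ := lt_min (by norm_num) (by linarith)
    have h5 : δ ≤ 1 / 2 := min_le_left _ _
    have h6 : δ ≤ (a - 2) / 9 := min_le_right _ _
    have h1 := (((h.scale (s := 1 - δ) (by linarith)).sub h.lim).div_const δ)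
    have h2 : (1 / (1 - δ) ^ 2 - 1) / δ < a := by
      have h7 : 0 < 1 - δ := by linarith
      have : (1 / (1 - δ) ^ 2 - 1) / δ = (2 - δ) / (1 - δ) ^ 2 := by field_simp; ring
      rw [this, div_lt_iff₀ (by positivity)]
      have h8 : 2 - δ ≤ (2 + 8 * δ) * (1 - δ) ^ 2 := by
        nlinarith [mul_nonneg h0.le (mul_nonneg (sub_nonneg.2 h5) (by linarith : 0 ≤ 5 / 4 - δ))]
      refine h8.trans_lt (mul_lt_mul_of_pos_right (by linarith) (by positivity))
    filter_upwards [h1.eventually (gt_mem_nhds h2), self_mem_nhdsWithin] with τ h3 hτ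
    have hτ' : (0 : ℝ) < τ := hτ
    refine lt_of_le_of_lt ?_ h3
    rw [← sub_div, div_right_comm]
    refine div_le_div_of_nonneg_right ?_ (by positivity)
    rw [le_div_iff₀ h0, mul_comm]
    exact h.upp δ τ

theorem Dat.ratio (h : Dat μ ρ g) :
    Tendsto (fun τ => M1 μ ρ τ / Zm μ ρ τ) (𝓝[>] 0) (𝓝 2) := by
  have h1 := h.m1.div h.lim one_ne_zero
  rw [div_one] at h1
  refine h1.congr' ?_
  filter_upwards [self_mem_nhdsWithin] with τ hτ
  have hτ' : (0 : ℝ) < τ := hτ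
  simp only [Pi.div_apply]
  rw [div_div_div_cancel_right₀ (by positivity)]

theorem Dat.lg (h : Dat μ ρ g) :
    Tendsto (fun τ => log (Zm μ ρ τ / (4 * π * τ) ^ 2)) (𝓝[>] 0) (𝓝 0) := by
  have := h.lim.log one_ne_zero
  rwa [log_one] at this

theorem Dat.Zpos (h : Dat μ ρ g) : ∀ᶠ τ in 𝓝[>] (0 : ℝ), 0 < Zm μ ρ τ := by
  filter_upwards [h.lim.eventually (lt_mem_nhds one_pos), self_mem_nhdsWithin] with τ h1 hτ
  have hτ' : (0 : ℝ) < τ := hτ
  exact (div_pos_iff_of_pos_right (by positivity)).1 h1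

/-- exponentially small quantities stay small after division by the mass -/
theorem Dat.small (h : Dat μ ρ g) (k : ℕ) {c : ℝ} (hc : 0 < c) (C : ℝ) :
    Tendsto (fun τ : ℝ => C * exp (-(c / (4 * τ))) / τ ^ k / Zm μ ρ τ) (𝓝[>] 0) (𝓝 0) := by
  have h1 := (tail (k + 2) hc (C / (4 * π) ^ 2)).div h.lim one_ne_zero
  rw [div_one] at h1
  refine h1.congr' ?_
  filter_upwards [self_mem_nhdsWithin, h.Zpos] with τ hτ hZ
  have hτ' : (0 : ℝ) < τ := hτ
  simp only [Pi.div_apply]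
  field_simp
  ring

theorem Dat.mass (h : Dat μ ρ g) {S : Set X} (hS : MeasurableSet S) {c : ℝ} (hc : 0 < c)
    (hρ : ∀ z ∈ S, c ≤ ρ z) {ε : ℝ} (hε : 0 < ε) :
    ∀ᶠ τ in 𝓝[>] (0 : ℝ), ∫ z in S, ew ρ τ z / Zm μ ρ τ ∂μ ≤ ε := by
  filter_upwards [(h.small 0 hc (μ.real univ)).eventually (gt_mem_nhds hε), self_mem_nhdsWithin,
    h.Zpos] with τ h1 hτ hZ
  have hτ' : (0 : ℝ) < τ := hτ
  refine le_trans ?_ h1.le
  rw [integral_div, pow_zero, div_one]
  refine div_le_div_of_nonneg_right ?_ hZ.le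
  calc ∫ z in S, ew ρ τ z ∂μ ≤ ∫ _ in S, exp (-(c / (4 * τ))) ∂μ :=
        setIntegral_mono_on (intg (ew_cont h.cρ τ)).integrableOn (integrable_const _).integrableOn
          hS fun z hz => ew_le hτ' (hρ z hz)
    _ ≤ ∫ _, exp (-(c / (4 * τ))) ∂μ :=
        setIntegral_le_integral (integrable_const _) (Eventually.of_forall fun _ => (exp_pos _).le)
    _ = _ := by rw [integral_const, smul_eq_mul]

theorem Dat.grad (h : Dat μ ρ g) {ε : ℝ} (hε : 0 < ε) :
    ∀ᶠ τ in 𝓝[>] (0 : ℝ), (∫ z, g z / (16 * τ) * ew ρ τ z ∂μ) / Zm μ ρ τ ≤ 2 + ε := by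
  obtain ⟨c, hc, hg⟩ := h.gle (ε / 4) (by positivity)
  obtain ⟨C, hC⟩ := isCompact_univ.exists_bound_of_continuousOn h.cg.continuousOn
  have h1 := (h.ratio.const_mul (1 + ε / 4)).add (h.small 1 hc (|C| / 16 * μ.real univ))
  filter_upwards [h1.eventually (gt_mem_nhds (show (1 + ε / 4) * 2 + 0 < 2 + ε by linarith)),
    self_mem_nhdsWithin, h.Zpos] with τ h2 hτ hZ
  have hτ' : (0 : ℝ) < τ := hτ
  refine le_trans ?_ h2.le
  rw [← mul_div_assoc, ← add_div]
  refine div_le_div_of_nonneg_right ?_ hZ.le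
  have c1 := ew_cont h.cρ τ
  have c0 := h.cρ
  have c2 := h.cg
  calc ∫ z, g z / (16 * τ) * ew ρ τ z ∂μ
      ≤ ∫ z, ((1 + ε / 4) * (ρ z / (4 * τ) * ew ρ τ z)
          + |C| / (16 * τ) * exp (-(c / (4 * τ)))) ∂μ := by
        refine integral_mono (intg (by fun_prop)) (intg (by fun_prop)) fun z => ?_
        have e0 := ew_pos ρ τ z
        have e1 := h.nn z
        by_cases hz : ρ z < c
        · have e2 : g z / (16 * τ) ≤ (1 + ε / 4) * (ρ z / (4 * τ)) := by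
            rw [div_le_iff₀ (by positivity)]
            refine (hg z hz).trans (le_of_eq ?_)
            field_simp
            ring
          have e3 := mul_le_mul_of_nonneg_right e2 e0.le
          have e4 : 0 ≤ |C| / (16 * τ) * exp (-(c / (4 * τ))) := by positivity
          simp only
          linarith
        · have e2 : g z / (16 * τ) ≤ |C| / (16 * τ) :=
            div_le_div_of_nonneg_right (((le_abs_self _).trans (hC z trivial)).trans (le_abs_self _))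
              (by positivity)
          have e3 := mul_le_mul e2 (ew_le hτ' (not_lt.1 hz)) e0.le (by positivity)
          have e4 : 0 ≤ (1 + ε / 4) * (ρ z / (4 * τ) * ew ρ τ z) := by positivity
          simp only
          linarith
    _ = _ := by
        rw [integral_add (intg (by fun_prop)) (integrable_const _), integral_const_mul,
          integral_const, smul_eq_mul, M1]
        field_simp

theorem Dat.curv (h : Dat μ ρ g) {R : X → ℝ} (hR : Continuous R) {ε : ℝ} (hε : 0 < ε) :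
    ∀ᶠ τ in 𝓝[>] (0 : ℝ), (∫ z, τ * R z * ew ρ τ z ∂μ) / Zm μ ρ τ ≤ ε := by
  obtain ⟨C, hC⟩ := isCompact_univ.exists_bound_of_continuousOn hR.continuousOn
  have h1 : Tendsto (fun τ : ℝ => τ * C) (𝓝[>] 0) (𝓝 (0 * C)) :=
    (tendsto_id.mul_const C).mono_left nhdsWithin_le_nhds
  rw [zero_mul] at h1
  filter_upwards [h1.eventually (gt_mem_nhds hε), self_mem_nhdsWithin, h.Zpos] with τ h2 hτ hZ
  have hτ' : (0 : ℝ) < τ := hτ
  refine le_trans ?_ h2.le
  have c1 := ew_cont h.cρ τ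
  rw [div_le_iff₀ hZ, Zm, ← integral_const_mul]
  refine integral_mono (intg (by fun_prop)) (intg (by fun_prop)) fun z => ?_
  exact mul_le_mul_of_nonneg_right
    (mul_le_mul_of_nonneg_left ((le_abs_self _).trans (hC z trivial)) hτ'.le) (ew_pos ρ τ z).le

/-- the normalised bump -/
def ub (μ : Measure X) (ρ : X → ℝ) (τ : ℝ) (z : X) : ℝ := ew ρ τ z / Zm μ ρ τ

theorem pot_ub {τ : ℝ} (hτ : 0 < τ) (hZ : 0 < Zm μ ρ τ) (z : X) :
    -log (ub μ ρ τ z) - 2 * log (4 * π * τ) =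
      ρ z / (4 * τ) + log (Zm μ ρ τ / (4 * π * τ) ^ 2) := by
  rw [ub, log_div (ew_pos ρ τ z).ne' hZ.ne', log_div hZ.ne' (by positivity), log_pow, ew, log_exp]
  push_cast
  ring

/-- **Laplace asymptotics**: mass one, Nash entropy, `W`. -/
theorem Dat.main (h : Dat μ ρ g) {R : X → ℝ} (hR : Continuous R) {ε : ℝ} (hε : 0 < ε) :
    ∀ᶠ τ in 𝓝[>] (0 : ℝ), 0 < Zm μ ρ τ ∧ ∫ z, ub μ ρ τ z ∂μ = 1 ∧
      ∫ z, (τ * (g z / (16 * τ ^ 2) + R z) + (-log (ub μ ρ τ z) - 2 * log (4 * π * τ)) - 4) *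
        ub μ ρ τ z ∂μ ≤ ε ∧
      |(∫ z, (-log (ub μ ρ τ z) - 2 * log (4 * π * τ)) * ub μ ρ τ z ∂μ) - 2| ≤ ε := by
  have h1 := h.ratio.add h.lg
  rw [add_zero] at h1
  filter_upwards [(Metric.tendsto_nhds.1 h1) (ε / 3) (by positivity), self_mem_nhdsWithin, h.Zpos,
    h.grad (ε := ε / 3) (by positivity), h.curv hR (ε := ε / 3) (by positivity)]
    with τ h2 hτ hZ h3 h4
  have hτ' : (0 : ℝ) < τ := hτ
  have c1 := ew_cont h.cρ τ
  have c0 := h.cρ
  have c2 := h.cg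
  set L := log (Zm μ ρ τ / (4 * π * τ) ^ 2) with hL
  rw [Real.dist_eq] at h2
  have e1 : ∫ z, ub μ ρ τ z ∂μ = 1 := by
    simp only [ub]
    rw [integral_div]
    exact div_self hZ.ne'
  have e2 : ∫ z, (-log (ub μ ρ τ z) - 2 * log (4 * π * τ)) * ub μ ρ τ z ∂μ =
      M1 μ ρ τ / Zm μ ρ τ + L := by
    simp only [pot_ub hτ' hZ, ← hL]
    have : ∀ z, (ρ z / (4 * τ) + L) * ub μ ρ τ z =
        (ρ z / (4 * τ) * ew ρ τ z + L * ew ρ τ z) / Zm μ ρ τ := fun z => by rw [ub]; ring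
    simp only [this]
    rw [integral_div, integral_add (intg (by fun_prop)) (intg (by fun_prop)), integral_const_mul,
      add_div, M1, mul_div_assoc]
    congr 1
    rw [show (∫ z, ew ρ τ z ∂μ) = Zm μ ρ τ from rfl, div_self hZ.ne', mul_one]
  refine ⟨hZ, e1, ?_, by rw [e2]; linarith⟩
  have e3 : ∫ z, (τ * (g z / (16 * τ ^ 2) + R z) + (-log (ub μ ρ τ z) - 2 * log (4 * π * τ)) - 4) *
      ub μ ρ τ z ∂μ = (∫ z, g z / (16 * τ) * ew ρ τ z ∂μ) / Zm μ ρ τ +
        (∫ z, τ * R z * ew ρ τ z ∂μ) / Zm μ ρ τ + (M1 μ ρ τ / Zm μ ρ τ + L) - 4 := by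
    simp only [pot_ub hτ' hZ, ← hL]
    have : ∀ z, (τ * (g z / (16 * τ ^ 2) + R z) + (ρ z / (4 * τ) + L) - 4) * ub μ ρ τ z =
        (g z / (16 * τ) * ew ρ τ z + τ * R z * ew ρ τ z + ρ z / (4 * τ) * ew ρ τ z
          + (L - 4) * ew ρ τ z) / Zm μ ρ τ := fun z => by rw [ub]; field_simp; ring
    simp only [this]
    rw [integral_div, integral_add (intg (by fun_prop)) (intg (by fun_prop)),
      integral_add (intg (by fun_prop)) (intg (by fun_prop)),
      integral_add (intg (by fun_prop)) (intg (by fun_prop)), integral_const_mul, M1,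
      show (∫ z, ew ρ τ z ∂μ) = Zm μ ρ τ from rfl]
    field_simp
    ring
  rw [e3]
  linarith [(abs_lt.1 h2).2]

end Crest.Agent.N207.SB

end
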