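import Crest.Agent.N207.SB.Gau
import Crest.Agent.R247.Ms10_322
import Crest.Agent.R247.Bo8_84

/-!
# Row 207 (helper38): a smooth squared distance on a closed Riemannian 4-manifold
-/

set_option autoImplicit false
set_option maxSynthPendingDepth 3
set_option linter.unusedSectionVars false

open Bundle Set MeasureTheory Manifold Filter Metric Real
open scoped ENNReal ContDiff Topology NNReal
open Crest.Agent.R247 Crest.Agent.R247.Ms322

noncomputable section

namespace Crest.Agent.N207.SB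

local notation "𝔼" => EuclideanSpace ℝ (Fin 4)

theorem low {X : Type*} [TopologicalSpace X] [CompactSpace X] {ρ : X → ℝ} (hc : Continuous ρ)
    {x : X} (hp : ∀ z, z ≠ x → 0 < ρ z) {V : Set X} (hV : V ∈ 𝓝 x) :
    ∃ c > 0, ∀ z, z ∉ V → c ≤ ρ z := by
  have hK : IsCompact (interior V)ᶜ := isOpen_interior.isClosed_compl.isCompact
  rcases (interior V)ᶜ.eq_empty_or_nonempty with h | h
  · refine ⟨1, one_pos, fun z hz => ?_⟩
    have : z ∈ (interior V)ᶜ := fun h' => hz (interior_subset h')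
    rw [h] at this
    exact this.elim
  · obtain ⟨z0, h0, h1⟩ := hK.exists_isMinOn h hc.continuousOn
    refine ⟨ρ z0, hp z0 ?_, fun z hz => h1 fun h' => hz (interior_subset h')⟩
    rintro rfl
    exact h0 (mem_interior_iff_mem_nhds.2 hV)

variable {M : Type*} [MetricSpace M] [CompactSpace M] [ChartedSpace 𝔼 M]
  [IsManifold (𝓡 4) ∞ M]
  [RiemannianBundle (fun p : M => TangentSpace (𝓡 4) p)]
  [IsContMDiffRiemannianBundle (𝓡 4) ∞ 𝔼 (fun p : M => TangentSpace (𝓡 4) p)]
  [SecondCountableTopology M] [Nonempty M] [IsRiemannianManifold (𝓡 4) M]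
  [MeasurableSpace M] [BorelSpace M]

theorem finVol : IsFiniteMeasure (μHE[4] : Measure M) := by
  have := isLocallyFiniteMeasure 4 M
  infer_instance

theorem gam_cont {f : M → ℝ} (hf : ContMDiff (𝓡 4) 𝓘(ℝ, ℝ) ∞ f) :
    Continuous (Bo84.mGam 4 f f) :=
  continuous_iff_continuousAt.2 fun z =>
    (Bo84.contMDiffAt_mGam (a := ∞) (m := 0) (hf z) (hf z) (by simp) (by simp)).continuousAt

theorem grad_sq {ρ : M → ℝ} {B : M → 𝔼} {V : Set M} (hV : IsOpen V) {K : ℝ≥0}
    (hB : LipschitzOnWith K B V) (hρ : ∀ z ∈ V, ρ z = ‖B z‖ ^ 2) {z : M} (hz : z ∈ V) :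
    Bo84.mGam 4 ρ ρ z ≤ 4 * K ^ 2 * ρ z := by
  have h1 : ‖Gr (n := 4) ρ z‖ ≤ 2 * K * ‖B z‖ := by
    refine le_of_forall_pos_le_add fun δ hδ => ?_
    set e : ℝ := δ / (2 * K + 1) with he
    have he0 : 0 < e := by positivity
    have hc : ContinuousAt B z := hB.continuousOn.continuousAt (hV.mem_nhds hz)
    have hW : V ∩ {y | ‖B y‖ < ‖B z‖ + e} ∈ 𝓝 z :=
      inter_mem (hV.mem_nhds hz) (hc.norm.eventually (gt_mem_nhds (by linarith)))
    have hL : LipschitzOnWith (Real.toNNReal (2 * K * (‖B z‖ + e))) ρ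
        (V ∩ {y | ‖B y‖ < ‖B z‖ + e}) := by
      refine LipschitzOnWith.of_dist_le' fun y hy y' hy' => ?_
      have e1 := hB.dist_le_mul y hy.1 y' hy'.1
      have e2 : |‖B y‖ - ‖B y'‖| ≤ K * dist y y' :=
        (abs_norm_sub_norm_le _ _).trans (by rwa [dist_eq_norm] at e1)
      have e3 : ‖B y‖ < ‖B z‖ + e := hy.2
      have e4 : ‖B y'‖ < ‖B z‖ + e := hy'.2
      rw [Real.dist_eq, hρ y hy.1, hρ y' hy'.1, sq_sub_sq, abs_mul,
        abs_of_nonneg (by positivity : 0 ≤ ‖B y‖ + ‖B y'‖)]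
      calc _ ≤ (2 * (‖B z‖ + e)) * (K * dist y y') :=
            mul_le_mul (by linarith) e2 (abs_nonneg _) (by positivity)
        _ = _ := by ring
    have h2 := norm_Gr_le_of_lipschitzOn (n := 4) hW hL
    rw [Real.coe_toNNReal _ (by positivity)] at h2
    have h3 : 2 * K * e ≤ δ := by
      rw [he, mul_div_assoc', div_le_iff₀ (by positivity)]
      nlinarith
    linarith
  rw [← norm_Gr_sq_eq_mGam, hρ z hz]
  calc _ ≤ (2 * K * ‖B z‖) ^ 2 := pow_le_pow_left₀ (norm_nonneg _) h1 2
    _ = _ := by ring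

theorem exists_rho (x : M) : ∃ ρ : M → ℝ, ContMDiff (𝓡 4) 𝓘(ℝ, ℝ) ∞ ρ ∧
    Dat (μHE[4] : Measure M) ρ (Bo84.mGam 4 ρ ρ) ∧ ∀ z, z ≠ x → 0 < ρ z := by
  have := finVol (M := M)
  set φ := chartAt 𝔼 x with hφ
  set a : 𝔼 := φ x with ha
  have hxs : x ∈ φ.source := mem_chart_source 𝔼 x
  have hat : a ∈ φ.target := φ.map_source hxs
  obtain ⟨A, hA, hdet⟩ := exists_isometry (n := 4) x hat
  obtain ⟨f⟩ : Nonempty (SmoothBumpFunction (𝓡 4) x) := inferInstance
  set q : M → ℝ := fun z => ‖A (φ z - a)‖ ^ 2 with hq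
  have hqs : ContMDiffOn (𝓡 4) 𝓘(ℝ, ℝ) ∞ q φ.source := by
    have h1 : ContDiff ℝ ∞ fun y : 𝔼 => ‖A (y - a)‖ ^ 2 :=
      (contDiff_norm_sq ℝ).comp (A.contDiff.comp (contDiff_id.sub contDiff_const))
    exact h1.contMDiff.comp_contMDiffOn contMDiffOn_chart
  set ρ : M → ℝ := fun z => f z • q z + (1 - f z) with hρ
  have hs : ContMDiff (𝓡 4) 𝓘(ℝ, ℝ) ∞ ρ :=
    (f.contMDiff_smul hqs).add (contMDiff_const.sub f.contMDiff)
  have hnn : ∀ z, 0 ≤ ρ z := fun z =>
    add_nonneg (mul_nonneg f.nonneg (by positivity)) (sub_nonneg.2 f.le_one)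
  have hp : ∀ z, z ≠ x → 0 < ρ z := by
    intro z hz
    rcases (f.le_one (x := z)).eq_or_lt with h1 | h1
    · have hzs : z ∈ φ.source := f.support_subset_source (by simp [h1])
      have h2 : φ z - a ≠ 0 := fun h => hz (φ.injOn hzs hxs (sub_eq_zero.1 h))
      have h3 : A (φ z - a) ≠ 0 := fun h => h2 (A.map_eq_zero_iff.1 h)
      simp only [hρ, h1, one_smul, sub_self, add_zero, hq]
      positivity
    · exact add_pos_of_nonneg_of_pos (mul_nonneg f.nonneg (by positivity)) (sub_pos.2 h1)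
  have hU : {z | ρ z = q z} ∈ 𝓝 x := by
    filter_upwards [f.eventuallyEq_one] with z hz
    simp only [hρ, hz, Pi.one_apply, one_smul, sub_self, add_zero]
  have hsa : φ.symm a = x := φ.left_inv hxs
  refine ⟨ρ, hs, ⟨hs.continuous, gam_cont hs, hnn, ?_, fun η hη => ?_⟩, hp⟩
  · have hd : ContinuousAt (dens (n := 4) x) a :=
      (continuousOn_dens x).continuousAt (φ.open_target.mem_nhds hat)
    have hU' : {z | ρ z = q z} ∈ 𝓝 (φ.symm a) := by rwa [hsa]
    obtain ⟨r, hr, hb⟩ := Metric.mem_nhds_iff.1 (inter_mem (inter_mem (φ.open_target.mem_nhds hat)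
      ((φ.continuousAt_symm hat).preimage_mem_nhds hU'))
      (hd.eventually (gt_mem_nhds (lt_add_one _))))
    have hbt : ball a r ⊆ φ.target := fun y hy => (hb hy).1.1
    set F : 𝔼 → ℝ := (ball a r).indicator (dens (n := 4) x) with hF
    have hFm : Measurable F := by
      classical
      rw [hF, ← piecewise_eq_indicator]
      exact ((continuousOn_dens x).mono hbt).measurable_piecewise continuousOn_const
        measurableSet_ball
    have hFb : ∀ y, |F y| ≤ dens (n := 4) x a + 1 := fun y => by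
      have h0 := dens_nonneg (n := 4) x a
      by_cases hy : y ∈ ball a r
      · rw [hF, indicator_of_mem hy, abs_of_nonneg (dens_nonneg _ _)]
        exact le_of_lt (hb hy).2
      · rw [hF, indicator_of_notMem hy, abs_zero]
        linarith
    have hFc : ContinuousAt F a := hd.congr (by
      filter_upwards [ball_mem_nhds a hr] with y hy using (indicator_of_mem hy _).symm)
    have h1 := gauss_lim A a hFm hFb hFc
    have hFa : F a = |(A : 𝔼 →L[ℝ] 𝔼).det| := by
      rw [hF, indicator_of_mem (mem_ball_self hr), hdet]; rfl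
    have hd0 : |(A : 𝔼 →L[ℝ] 𝔼).det| ≠ 0 := by
      rw [← hFa, hF, indicator_of_mem (mem_ball_self hr)]; exact (dens_pos x hat).ne'
    rw [hFa, inv_mul_cancel₀ hd0] at h1
    set S : Set M := φ.symm '' ball a r with hS
    have hSo : IsOpen S := φ.symm.isOpen_image_of_subset_source isOpen_ball hbt
    obtain ⟨c, hc, hlow⟩ := low hs.continuous hp
      (hSo.mem_nhds (show x ∈ S from ⟨a, mem_ball_self hr, hsa⟩))
    have h2 : Tendsto (fun τ : ℝ => (∫ z in Sᶜ, ew ρ τ z ∂(μHE[4] : Measure M)) / (4 * π * τ) ^ 2)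
        (𝓝[>] 0) (𝓝 0) := by
      refine squeeze_zero' (Eventually.of_forall fun τ => div_nonneg
        (integral_nonneg fun z => (ew_pos ρ τ z).le) (sq_nonneg _)) ?_
        (tail 2 hc ((μHE[4] : Measure M).real univ / (4 * π) ^ 2))
      filter_upwards [self_mem_nhdsWithin] with τ hτ
      have hτ' : (0 : ℝ) < τ := hτ
      have h3 : ∫ z in Sᶜ, ew ρ τ z ∂(μHE[4] : Measure M) ≤
          (μHE[4] : Measure M).real univ * exp (-(c / (4 * τ))) :=
        calc _ ≤ ∫ _ in Sᶜ, exp (-(c / (4 * τ))) ∂(μHE[4] : Measure M) :=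
              setIntegral_mono_on (intg (ew_cont hs.continuous τ)).integrableOn
                (integrable_const _).integrableOn hSo.measurableSet.compl
                fun z hz => ew_le hτ' (hlow z hz)
          _ ≤ ∫ _, exp (-(c / (4 * τ))) ∂(μHE[4] : Measure M) :=
              setIntegral_le_integral (integrable_const _)
                (Eventually.of_forall fun _ => (exp_pos _).le)
          _ = _ := by rw [integral_const, smul_eq_mul]
      refine (div_le_div_of_nonneg_right h3 (by positivity)).trans (le_of_eq ?_)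
      field_simp
    have h3 := h1.add h2
    rw [add_zero] at h3
    refine h3.congr fun τ => ?_
    rw [← add_div, Zm, ← integral_add_compl hSo.measurableSet
      (intg (μ := (μHE[4] : Measure M)) (ew_cont hs.continuous τ))]
    congr 2
    rw [hS, hφ, integral_symm_image x hbt measurableSet_ball,
      ← integral_indicator measurableSet_ball]
    refine integral_congr_ae (Eventually.of_forall fun y => ?_)
    by_cases hy : y ∈ ball a r
    · have e1 : ρ (φ.symm y) = q (φ.symm y) := (hb hy).1.2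
      simp only [hF, indicator_of_mem hy, smul_eq_mul, ew]
      rw [← hφ, e1]
      simp only [hq, φ.right_inv (hbt hy)]
    · simp only [hF, indicator_of_notMem hy, zero_mul]
  · set e : ℝ≥0 := Real.toNNReal (min 1 (η / 3)) with he
    have he0 : 0 < min 1 (η / 3) := lt_min one_pos (by positivity)
    have hec : (e : ℝ) = min 1 (η / 3) := Real.coe_toNNReal _ he0.le
    obtain ⟨r, hr, hbt, -, hL⟩ := exists_bilip (n := 4) x hat hA (η := e) (Real.toNNReal_pos.2 he0)
    have hSo : IsOpen (φ.symm '' ball a r) := φ.symm.isOpen_image_of_subset_source isOpen_ball hbt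
    set V : Set M := φ.symm '' ball a r ∩ interior {z | ρ z = q z} with hV
    have hVo : IsOpen V := hSo.inter isOpen_interior
    have hL' : LipschitzOnWith (1 + e) (fun z => A (φ z - a)) V := by
      intro y hy y' hy'
      have := hL hy.1 hy'.1
      simpa [map_sub, edist_sub_right] using this
    obtain ⟨c, hc, hlow⟩ := low hs.continuous hp (hVo.mem_nhds
      ⟨⟨a, mem_ball_self hr, hsa⟩, mem_interior_iff_mem_nhds.2 hU⟩)
    refine ⟨c, hc, fun z hz => ?_⟩
    have hzV : z ∈ V := by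
      by_contra h
      exact absurd (hlow z h) (not_le.2 hz)
    refine (grad_sq hVo hL'
      (fun y hy => (interior_subset hy.2 : y ∈ {z | ρ z = q z})) hzV).trans ?_
    refine mul_le_mul_of_nonneg_right (mul_le_mul_of_nonneg_left ?_ (by norm_num)) (hnn z)
    have e1 : (e : ℝ) ≤ 1 := hec ▸ min_le_left _ _
    have e2 : (e : ℝ) ≤ η / 3 := hec ▸ min_le_right _ _
    have e3 : (0 : ℝ) ≤ e := e.2
    push_cast
    nlinarith

end Crest.Agent.N207.SB

end
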