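import Crest.Agent.N207.SB.Bump
import Crest.Agent.R235.Sob4_984

/-!
# Row 207 (helper38): `HC.Sob0` for the concrete scalar calculus
-/

set_option autoImplicit false
set_option maxSynthPendingDepth 3
set_option linter.unusedSectionVars false

open Bundle Set MeasureTheory Manifold Filter Metric Real
open scoped ENNReal ContDiff Topology NNReal
open Crest.Agent.R247 Crest.Agent.R247.Ms322

noncomputable section

namespace Crest.Agent.N207.SB

theorem toReal_pow {X F : Type*} [MeasurableSpace X] {μ : Measure X} [NormedAddCommGroup F]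
    {g : X → F} {k : ℕ} (hk : k ≠ 0) (hg : MemLp g k μ) :
    (eLpNorm g k μ).toReal ^ k = ∫ x, ‖g x‖ ^ k ∂μ := by
  rw [hg.eLpNorm_eq_integral_rpow_norm (by simpa using hk) (by simp)]
  have h0 : 0 ≤ ∫ x, ‖g x‖ ^ (k : ℝ≥0∞).toReal ∂μ :=
    integral_nonneg fun x => Real.rpow_nonneg (norm_nonneg _) _
  have h1 : (k : ℝ) ≠ 0 := by exact_mod_cast hk
  rw [ENNReal.toReal_ofReal (Real.rpow_nonneg h0 _), ← Real.rpow_natCast, ← Real.rpow_mul h0]
  simp [h1]

section static

local notation "𝔼" => EuclideanSpace ℝ (Fin 4)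

variable {M : Type*} [MetricSpace M] [CompactSpace M] [ChartedSpace 𝔼 M]
  [IsManifold (𝓡 4) ∞ M]
  [RiemannianBundle (fun p : M => TangentSpace (𝓡 4) p)]
  [IsContMDiffRiemannianBundle (𝓡 4) ∞ 𝔼 (fun p : M => TangentSpace (𝓡 4) p)]
  [SecondCountableTopology M] [Nonempty M] [IsRiemannianManifold (𝓡 4) M]
  [MeasurableSpace M] [BorelSpace M]

theorem sob_static : ∃ A : ℝ, 0 < A ∧ ∀ w : M → ℝ, ContMDiff (𝓡 4) 𝓘(ℝ, ℝ) ∞ w →
    √(∫ x, w x ^ 4 ∂(μHE[4] : Measure M)) ≤ A * ∫ x, Bo84.mGam 4 w w x ∂(μHE[4] : Measure M)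
      + A * ∫ x, w x ^ 2 ∂(μHE[4] : Measure M) := by
  have := finVol (M := M)
  obtain ⟨C, hC⟩ := R235.Sob4_984.sob_test (M := M)
  refine ⟨2 * (C : ℝ) ^ 2 + 1, by positivity, fun f hf => ?_⟩
  have hL : LocallyLipschitz f :=
    LLo.loc (LLo.of_contMDiffAt (n := 4) fun z _ => (hf z).of_le (by simp))
  obtain ⟨K, hK⟩ := isCompact_univ.exists_bound_of_continuousOn hf.continuous.continuousOn
  obtain ⟨K', hK'⟩ := isCompact_univ.exists_bound_of_continuousOn (gam_cont hf).continuousOn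
  have b1 : ∀ p, MemLp f p (μHE[4] : Measure M) := fun p =>
    MemLp.of_bound hf.continuous.aestronglyMeasurable K
      (Eventually.of_forall fun z => hK z trivial)
  have b2 : MemLp (Gr (n := 4) f) 2 (μHE[4] : Measure M) :=
    MemLp.of_bound (measurable_Gr f).aestronglyMeasurable (√K') (Eventually.of_forall fun z =>
      Real.le_sqrt_of_sq_le (by
        rw [norm_Gr_sq_eq_mGam]; exact (le_abs_self _).trans (hK' z trivial)))
  have h1 := hC f hL
  set a := (eLpNorm (Gr (n := 4) f) 2 (μHE[4] : Measure M)).toReal with ha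
  set b := (eLpNorm f 2 (μHE[4] : Measure M)).toReal with hb
  set c := (eLpNorm f 4 (μHE[4] : Measure M)).toReal with hc
  have h2 : c ≤ C * (a + b) := by
    have h3 := ENNReal.toReal_mono (ENNReal.mul_ne_top ENNReal.coe_ne_top
      (ENNReal.add_ne_top.2 ⟨b2.2.ne, (b1 2).2.ne⟩)) h1
    rwa [ENNReal.toReal_mul, ENNReal.coe_toReal, ENNReal.toReal_add b2.2.ne (b1 2).2.ne] at h3
  have e4 : ∫ z, f z ^ 4 ∂(μHE[4] : Measure M) = (c ^ 2) ^ 2 := by
    rw [← pow_mul, hc]
    refine Eq.trans ?_ (toReal_pow (k := 4) (by norm_num) (b1 _)).symm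
    refine integral_congr_ae (Eventually.of_forall fun z => ?_)
    simp only [Real.norm_eq_abs]
    rw [Even.pow_abs (by decide)]
  have e2 : ∫ z, f z ^ 2 ∂(μHE[4] : Measure M) = b ^ 2 := by
    refine Eq.trans ?_ (toReal_pow (k := 2) (by norm_num) (b1 _)).symm
    refine integral_congr_ae (Eventually.of_forall fun z => ?_)
    simp only [Real.norm_eq_abs, sq_abs]
  have e1 : ∫ z, Bo84.mGam 4 f f z ∂(μHE[4] : Measure M) = a ^ 2 := by
    refine Eq.trans ?_ (toReal_pow (k := 2) (by norm_num) b2).symm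
    exact integral_congr_ae (Eventually.of_forall fun z => (norm_Gr_sq_eq_mGam f z).symm)
  rw [e4, e2, e1, Real.sqrt_sq (sq_nonneg c)]
  have hc0 : 0 ≤ c := ENNReal.toReal_nonneg
  have hC0 : (0 : ℝ) ≤ C := C.2
  calc c ^ 2 ≤ (C * (a + b)) ^ 2 := pow_le_pow_left₀ hc0 h2 2
    _ = C ^ 2 * (a + b) ^ 2 := by ring
    _ ≤ C ^ 2 * (2 * (a ^ 2 + b ^ 2)) :=
        mul_le_mul_of_nonneg_left (by nlinarith [sq_nonneg (a - b)]) (by positivity)
    _ ≤ _ := by nlinarith [sq_nonneg a, sq_nonneg b]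

end static

variable {M : Type*} [TopologicalSpace M] [ChartedSpace E4 M] [IsManifold 𝓘(ℝ, E4) ∞ M]
  [T3Space M] [ConnectedSpace M] [MeasurableSpace M] [BorelSpace M] [CompactSpace M]
  [SecondCountableTopology M]

/-- **Sobolev inequality at a fixed time** -/
theorem sob0 (F : Flow M) : F.hc.Sob0 := by
  intro t _
  obtain ⟨A, hA, h⟩ := sob_static (M := Sl (F.m t))
  exact ⟨A, A, hA, hA, h⟩

end Crest.Agent.N207.SB

end
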